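import Vale.Agent.P281.H64.TW.Stat

/-!
# P281: definitions for the statement on towers of fibrations, continued
-/

open Set
open Vale.Agent.P281 Vale.Agent.P281.H713.TZ.S
open Vale.Agent.P281.H511.Surf (IsFibration IsFibre)
open Vale.Agent.P281.H64.Thin (IsThinSet)
open Vale.Agent.P281.H64.StatV (NoExc ExcOne IsModel Kahler CovRank Cond)
open scoped Manifold ContDiff Topology

noncomputable section

namespace Vale.Agent.P281.H64.TW

/-- `f : (X, Δ) → Y` has a model without exceptional divisors, or a model whose exceptional divisors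
have coefficient one and whose orbifold base has simple normal crossings (for instance `f` itself). -/
def HasNeatModel (n p : ℕ) {X Y : Type} [TopologicalSpace X] [ChartedSpace (Cm n) X]
    [TopologicalSpace Y] [ChartedSpace (Cm p) Y] (f : X → Y) (Δ : Set X → ℝ) : Prop :=
  ∃ (X₁ Y₁ : Type) (_ : TopologicalSpace X₁) (_ : ChartedSpace (Cm n) X₁)
    (_ : TopologicalSpace Y₁) (_ : ChartedSpace (Cm p) Y₁) (f₁ : X₁ → Y₁) (Δ₁ : Set X₁ → ℝ),
    IsModel n p f₁ Δ₁ f Δ ∧ (NoExc n p f₁ ∨ ExcOne n p f₁ Δ₁)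

/-- The storey `g : X → Z` has relative dimension one, or `X` is Kähler and the very general fibres
of `g` satisfy `Cond`. -/
def TopCond (n p d : ℕ) {X Z : Type} [TopologicalSpace X] [ChartedSpace (Cm n) X]
    [TopologicalSpace Z] [ChartedSpace (Cm p) Z] (g : X → Z) (Δ : Set X → ℝ) : Prop :=
  d = 1 ∨ Kahler n X ∧ ∃ H : ℕ → Set Z, (∀ j, IsThinSet (Cm p) (H j)) ∧
    ∀ z, (∀ j, z ∉ H j) → ∀ (G : Type) [TopologicalSpace G] [T2Space G] [ChartedSpace (Cm d) G]
      (i : G → X), IsFibre (Cm n) (Cm d) g z i → Cond n d i Δ True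

end Vale.Agent.P281.H64.TW
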