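import Vale.Agent.P281.H64.TV.Stat
import Vale.Agent.P281.H64.TV.Refl

/-!
# P281, project T-W (helper64): towers of fibrations, statements of the blocks
-/

open Set
open Vale.Agent.P281 Vale.Agent.P281.H713.TZ.S
open Vale.Agent.P281.H511.Surf (IsFibration IsFibre)
open Vale.Agent.P281.H64.Thin (IsThinSet)
open Vale.Agent.P281.H64.StatV (NoExc ExcOne IsModel Kahler)
open scoped Manifold ContDiff Topology

noncomputable section

namespace Vale.Agent.P281.H64.TW

/-- **W1**: let `g : X → Z` and `h : Z → Y` be fibrations, `B(g, Δ)` a rational SNC boundary of `Z`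
(in particular finitely many components). If the pull-back to `X` of a meromorphic `m`-canonical form
`σ` of `Y` has poles at most `m Δ`, then the pull-back to `Z` has poles at most `m B(g, Δ)`.

Proof. At a general point `z` of a prime divisor `D` of `Z` contained in the preimage of the poles of
`σ`, let `E` be a prime divisor of `X` with `closure (g '' E) = D`, `x` a general point of `E`,
coordinates `z_1` (equation of `D`), `z_2, …` at `z`, `t` (equation of `E`) and `z_2 ∘ g, …` at `x`,
`z_1 ∘ g = t ^ k`. If `A` is the coefficient of a product of `m` monomials `dz_{I_r}`, `j` of which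
contain `dz_1`, then `t ^ (m Δ(E)) * A(t ^ k, z_2, …) * t ^ ((k - 1) j)` is holomorphic, so the order
of the pole of `A` along `D` is at most `(m Δ(E) + (k - 1) m) / k = m (1 - (1 - Δ(E)) / k)`. Then
take the infimum over `E` (some `E` exists as `g` is surjective), and extend across codimension
two. -/
def KodFCompStmt : Prop :=
  ∀ (n p q : ℕ) (X Z Y : Type) [TopologicalSpace X] [ChartedSpace (Cm n) X]
    [TopologicalSpace Z] [ChartedSpace (Cm p) Z] [TopologicalSpace Y] [ChartedSpace (Cm q) Y]
    (g : X → Z) (h : Z → Y) (Δ : Set X → ℝ), IsFibration (Cm n) (Cm p) g Δ →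
    IsFibration (Cm p) (Cm q) h (base (Cm n) (Cm p) g Δ) →
    kodF n q Δ (id : X → X) (fun x => h (g x)) ≤
      kodF p q (base (Cm n) (Cm p) g Δ) (id : Z → Z) h

/-- **W2** (easy addition): if `F` is the fibre of `h ∘ g` over a very general point `y`, `G` the
fibre of `g` over a very general point of `Z`, then `κ(F, K_F + Δ|F) ≤ κ(G, K_G + Δ|G) + dim C`,
`C` being the fibres of `h`. -/
def EasyStmt : Prop :=
  ∀ (q c d : ℕ) (X Z Y : Type) [TopologicalSpace X] [ChartedSpace (Cm (q + c + d)) X]
    [TopologicalSpace Z] [ChartedSpace (Cm (q + c)) Z] [TopologicalSpace Y] [ChartedSpace (Cm q) Y]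
    (g : X → Z) (h : Z → Y) (Δ : Set X → ℝ), IsFibration (Cm (q + c + d)) (Cm (q + c)) g Δ →
    IsFibration (Cm (q + c)) (Cm q) h (fun _ => 0) → ∀ (a : WithBot ℕ∞) (H : ℕ → Set Z),
    (∀ k, IsThinSet (Cm (q + c)) (H k)) → (∀ z, (∀ k, z ∉ H k) → ∀ (G : Type)
      [TopologicalSpace G] [T2Space G] [ChartedSpace (Cm d) G] (i : G → X),
      IsFibre (Cm (q + c + d)) (Cm d) g z i → kodR (Cm (q + c + d)) (Cm d) i Δ ≤ a) →
    ∃ H' : ℕ → Set Y, (∀ k, IsThinSet (Cm q) (H' k)) ∧ ∀ y, (∀ k, y ∉ H' k) →
      ∀ (F : Type) [TopologicalSpace F] [T2Space F] [ChartedSpace (Cm (c + d)) F] (i : F → X),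
        IsFibre (Cm (q + c + d)) (Cm (c + d)) (fun x => h (g x)) y i → Function.Injective i →
        kodR (Cm (q + c + d)) (Cm (c + d)) i Δ ≤ a + ((c : ℕ∞) : WithBot ℕ∞)

end Vale.Agent.P281.H64.TW
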