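import Vale.Agent.P281.H64.TW.Stat
import Vale.Agent.P281.H64.TW.Spec
import Vale.Agent.P281.H64.TV.StatP
import Vale.Agent.P281.H364.Gen.Fin

/-!
# P281, project T-W (helper64): towers of fibrations, assembly
-/

open Set
open Vale.Agent.P281 Vale.Agent.P281.H713.TZ.S
open Vale.Agent.P281.H511.Surf (IsFibration IsFibre)
open Vale.Agent.P281.H64.Thin (IsThinSet)
open Vale.Agent.P281.H64.StatV (NoExc ExcOne IsModel Kahler ForFibres CovRank Cond)
open scoped Manifold ContDiff Topology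

noncomputable section

namespace Vale.Agent.P281.H64.TW

/-- the composition of two fibrations is a fibration -/
theorem comp_fib {n p q : ℕ} {X Z Y : Type} [TopologicalSpace X] [ChartedSpace (Cm n) X]
    [TopologicalSpace Z] [ChartedSpace (Cm p) Z] [TopologicalSpace Y] [ChartedSpace (Cm q) Y]
    {g : X → Z} {h : Z → Y} {Δ : Set X → ℝ} {Γ : Set Z → ℝ}
    (hg : IsFibration (Cm n) (Cm p) g Δ) (hh : IsFibration (Cm p) (Cm q) h Γ) :
    IsFibration (Cm n) (Cm q) (fun x => h (g x)) Δ := by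
  have := hg.compact
  have := hg.hausdorff.1
  have := hg.hausdorff.2
  have := hh.hausdorff.2
  have hs : Function.Surjective g := fun z => (hg.fibres z).nonempty
  have hq : Topology.IsQuotientMap g :=
    hg.hol.continuous.isClosedMap.isQuotientMap hg.hol.continuous hs
  refine ⟨⟨hg.hausdorff.1, hh.hausdorff.2⟩, hg.compact, hg.connected,
    ⟨hg.manifold.1, hh.manifold.2⟩, hh.hol.comp hg.hol, fun y => ?_, hg.snc⟩
  exact hq.isCoinducing.isConnected_preimage_of_isClosed hg.fibres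
    (isClosed_singleton.preimage hh.hol.continuous) (hh.fibres y)

/-- `κ(Z, K_Z + B(g, Δ)) ≤ kodF g Δ` for a neat fibration `g` -/
theorem base_le {n p : ℕ} {X Y : Type} [tX : TopologicalSpace X] [cX : ChartedSpace (Cm n) X]
    [tY : TopologicalSpace Y] [cY : ChartedSpace (Cm p) Y] {f : X → Y} {Δ : Set X → ℝ}
    (h : IsFibration (Cm n) (Cm p) f Δ) (he : NoExc n p f ∨ ExcOne n p f Δ) :
    kodX (Cm p) (base (Cm n) (Cm p) f Δ) ≤ kodF n p Δ (id : X → X) f := by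
  have hk := H364.Gen.kapLe_of H303.UF.crit H383.Gen.compl H364.Gen.compStmt h
  obtain ⟨⟨_, _⟩, _, _, ⟨_, _⟩, hf₁, hc₁, hΔ₁⟩ := h
  have hg : ∃ Γ : Set Y → ℝ, Γ = base (Cm n) (Cm p) f Δ ∧
      ({G | Γ G ≠ 0}.Finite ∧ (∀ G, Γ G ≠ 0 → J.IsPrime (Cm p) G) ∧
      (∀ G, ∃ q : ℚ, Γ G = q ∧ 0 ≤ q ∧ q ≤ 1) ∧
      (∀ z G, Γ G ≠ 0 → f z ∈ G →
        z ∈ closure {z' | (∃ G, Γ G ≠ 0 ∧ f z' ∈ G) ∧
          ∀ᶠ y in 𝓝 (f z'), SNCAt (Cm p) Γ y}) ∧
      OrbMor (Cm n) (Cm p) f Δ Γ) := by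
    rcases he with he | he
    · exact ⟨_, rfl, H364.Gen.base0 n p X Y f Δ hf₁ hc₁ hΔ₁ he _ rfl⟩
    · exact ⟨_, rfl, H364.Gen.base1 n p X Y f Δ hf₁ hc₁ hΔ₁ he _ rfl⟩
  obtain ⟨Γ, hΓ, g1, g2, g3, g4, g5⟩ := hg
  rw [← hΓ]
  exact (hk _ g1 g2 g3 g4 g5).1

/-- one storey -/
theorem fib_le {n p d : ℕ} (hn : n = p + d) (hd : 0 < d) {X Z : Type} [TopologicalSpace X]
    [ChartedSpace (Cm n) X] [TopologicalSpace Z] [ChartedSpace (Cm p) Z] {g : X → Z}
    {Δ : Set X → ℝ} {a : WithBot ℕ∞}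
    (hV : ∀ f : X → Z, IsFibration (Cm n) (Cm p) f Δ → Kahler n X →
      ForFibres n p d f Δ (kodF n p Δ (id : X → X) f) True)
    (hg : IsFibration (Cm n) (Cm p) g Δ) (ha : FibGE n p d g Δ a) :
    a + kodF n p Δ (id : X → X) g ≤ kodX (Cm n) Δ := by
  subst hn
  by_cases hK : Kahler (p + d) X
  · obtain ⟨H, hH, hmain⟩ := hV g hg hK
    by_cases h1 : d = 1
    · subst h1
      obtain ⟨H', hH', hmain'⟩ := H364.Gen.fin g Δ hg
      obtain ⟨K, hK', hKy⟩ := StatV.thin_union hH hH'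
      obtain ⟨z, hz, G, _, _, _, i, hi, hle⟩ := ha K hK'
      rcases hle with ⟨hle, -⟩ | ⟨-, r, hr, hc⟩
      · exact (add_le_add hle le_rfl).trans (hmain' z (hKy z hz).2 G i hi).1.1
      · exact (add_le_add hr le_rfl).trans ((hmain z (hKy z hz).1 G i hi).1 r hc)
    · obtain ⟨z, hz, G, _, _, _, i, hi, hle⟩ := ha H hH
      rcases hle with ⟨hle, h2 | ⟨-, h2⟩⟩ | ⟨-, r, hr, hc⟩
      · exact absurd h2 h1
      · exact (add_le_add hle le_rfl).trans ((hmain z hz G i hi).2 h2)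
      · exact (add_le_add hr le_rfl).trans ((hmain z hz G i hi).1 r hc)
  · by_cases h1 : d = 1
    · subst h1
      obtain ⟨H', hH', hmain'⟩ := H364.Gen.fin g Δ hg
      obtain ⟨z, hz, G, _, _, _, i, hi, hle⟩ := ha H' hH'
      rcases hle with ⟨hle, -⟩ | ⟨h2, -⟩
      · exact (add_le_add hle le_rfl).trans (hmain' z hz G i hi).1.1
      · exact absurd h2 hK
    · obtain ⟨z, hz, G, _, _, _, i, hi, hle⟩ := ha (fun _ => ∅) fun _ => by
        refine ⟨isClosed_empty, fun y => ⟨fun _ => 1, contMDiffAt_const, fun h => ?_,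
          Filter.Eventually.of_forall fun z hz => hz.elim⟩⟩
        exact one_ne_zero h.self_of_nhds
      rcases hle with ⟨hle, h2 | ⟨h2, -⟩⟩ | ⟨h2, -⟩
      · exact absurd h2 h1
      · exact absurd h2 hK
      · exact absurd h2 hK

/-- **T-W**: the inequality for towers -/
theorem tower_le (comp : KodFCompStmt)
    (hV : ∀ (n p d : ℕ), n = p + d → 0 < d → ∀ (X Z : Type) [TopologicalSpace X]
      [ChartedSpace (Cm n) X] [TopologicalSpace Z] [ChartedSpace (Cm p) Z] (Δ : Set X → ℝ)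
      (f : X → Z), IsFibration (Cm n) (Cm p) f Δ → Kahler n X →
      ForFibres n p d f Δ (kodF n p Δ (id : X → X) f) True)
    {p k : ℕ} {X Y : Type} [TopologicalSpace Y]
    [ChartedSpace (Cm p) Y] [TopologicalSpace X] [ChartedSpace (Cm (p + k)) X] {f : X → Y}
    {Δ : Set X → ℝ} {a : WithBot ℕ∞} (h : Tower p k X f Δ a) :
    IsFibration (Cm (p + k)) (Cm p) f Δ ∧
      a + kodF (p + k) p Δ (id : X → X) f ≤ kodX (Cm (p + k)) Δ := by
  induction h with
  | one d X f Δ a hd hf ha =>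
    exact ⟨hf, fib_le rfl hd (hV _ p d rfl hd X _ Δ) hf ha⟩
  | step k d X Z g h Δ a b hd hg he ha hb ih =>
    obtain ⟨ih1, ih2⟩ := ih
    have h1 := comp _ _ _ _ _ _ g h Δ hg ih1
    have h2 := base_le hg he
    have h3 : a + kodF (p + (k + d)) (p + k) Δ (id : X → X) g ≤ kodX (Cm (p + (k + d))) Δ :=
      fib_le (by omega) hd (hV _ _ d (by omega) hd X Z Δ) hg ha
    refine ⟨comp_fib hg ih1, ?_⟩
    rw [add_assoc]
    exact (add_le_add le_rfl ((add_le_add le_rfl h1).trans (ih2.trans h2))).trans h3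

end Vale.Agent.P281.H64.TW
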