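import Vale.Agent.P281.H64.TW.StatQ
import Vale.Agent.P281.H64.TW.Core
import Vale.Agent.P281.H64.TV.Fin
import Vale.Agent.P281.H740.TW.TowerQ1

/-!
# P281, project T-W (helper64): the statement on towers
-/

open Set
open Vale.Agent.P281 Vale.Agent.P281.H713.TZ.S
open Vale.Agent.P281.H511.Surf (IsFibration IsFibre Q1)
open Vale.Agent.P281.H64.Thin (IsThinSet)
open Vale.Agent.P281.H64.StatV (NoExc ExcOne IsModel Kahler CovRank Cond ForFibres)
open scoped Manifold ContDiff Topology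

noncomputable section

namespace Vale.Agent.P281.H64.TW

theorem kap_le_kodF {n p : ℕ} {X Y : Type} [tX : TopologicalSpace X] [cX : ChartedSpace (Cm n) X]
    [tY : TopologicalSpace Y] [cY : ChartedSpace (Cm p) Y] {f : X → Y} {Δ : Set X → ℝ}
    (hf : IsFibration (Cm n) (Cm p) f Δ) (h : HasNeatModel n p f Δ) :
    kap (Cm n) (Cm p) ⟨X, Y, tX, tY, cX, cY, f, Δ⟩ ≤ kodF n p Δ (id : X → X) f := by
  obtain ⟨X₁, Y₁, _, _, _, _, f₁, Δ₁, ⟨h₁, hs⟩, he⟩ := h
  exact (H303.TE.kap_le_model h₁ hs he).trans (StatV.step _ _ _ _ _ _ _ _ _ _ hf h₁ hs)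

theorem hV (n p d : ℕ) (hn : n = p + d) (hd : 0 < d) (X Z : Type) [TopologicalSpace X]
    [ChartedSpace (Cm n) X] [TopologicalSpace Z] [ChartedSpace (Cm p) Z] (Δ : Set X → ℝ)
    (f : X → Z) (hf : IsFibration (Cm n) (Cm p) f Δ) (hK : Kahler n X) :
    ForFibres n p d f Δ (kodF n p Δ (id : X → X) f) True := by
  subst hn
  exact (StatV.statV hd f Δ hf).1 hK

theorem towerLe (comp : KodFCompStmt) : H740.TowerLe := by
  intro p k X Y _ _ _ _ f Δ a h
  exact tower_le comp hV h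

/-- **T-W** -/
theorem towers (comp : KodFCompStmt) :
    (∀ (p k : ℕ) (X Y : Type) [tX : TopologicalSpace X] [cX : ChartedSpace (Cm (p + k)) X]
      [tY : TopologicalSpace Y] [cY : ChartedSpace (Cm p) Y] (f : X → Y) (Δ : Set X → ℝ)
      (a : WithBot ℕ∞), Tower p k X f Δ a →
      (a + kodF (p + k) p Δ (id : X → X) f ≤ kodX (Cm (p + k)) Δ ∧
        KapLe (Cm (p + k)) (Cm p) f Δ (kodF (p + k) p Δ (id : X → X) f)) ∧
      (HasNeatModel (p + k) p f Δ →
        a + kap (Cm (p + k)) (Cm p) ⟨X, Y, tX, tY, cX, cY, f, Δ⟩ ≤ kodX (Cm (p + k)) Δ)) ∧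
    ∀ (p k d : ℕ) (X Z Y : Type) [TopologicalSpace X] [ChartedSpace (Cm (p + (k + d))) X]
      [TopologicalSpace Z] [ChartedSpace (Cm (p + k)) Z] [TopologicalSpace Y]
      [ChartedSpace (Cm p) Y] (g : X → Z) (h : Z → Y) (Δ : Set X → ℝ), 0 < d →
      IsFibration (Cm (p + (k + d))) (Cm (p + k)) g Δ →
      NoExc (p + (k + d)) (p + k) g ∨ ExcOne (p + (k + d)) (p + k) g Δ →
      TopCond (p + (k + d)) (p + k) d g Δ →
      Tower p k Z h (base (Cm (p + (k + d))) (Cm (p + k)) g Δ) ((k : ℕ∞) : WithBot ℕ∞) →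
      ∃ H : ℕ → Set Y, (∀ j, IsThinSet (Cm p) (H j)) ∧ ∀ y, (∀ j, y ∉ H j) →
        ∀ (F : Type) [TopologicalSpace F] [T2Space F] [ChartedSpace (Cm (k + d)) F] (i : F → X),
          H511.Surf.IsFibre (Cm (p + (k + d))) (Cm (k + d)) (fun x => h (g x)) y i →
          Function.Injective i →
          kodR (Cm (p + (k + d))) (Cm (k + d)) i Δ +
              kodF (p + (k + d)) p Δ (id : X → X) (fun x => h (g x)) ≤
            kodX (Cm (p + (k + d))) Δ ∧
          (HasNeatModel (p + (k + d)) p (fun x => h (g x)) Δ →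
            Q1 (Cm (p + (k + d))) (Cm p) (Cm (k + d)) (fun x => h (g x)) Δ i) := by
  refine ⟨?_, ?_⟩
  · intro p k X Y _ _ _ _ f Δ a hT
    obtain ⟨h1, h2⟩ := tower_le comp hV hT
    refine ⟨⟨h2, H364.Gen.kapLe_of H303.UF.crit H383.Gen.compl H364.Gen.compStmt h1⟩,
      fun hN => (add_le_add le_rfl (kap_le_kodF h1 hN)).trans h2⟩
  · intro p k d X Z Y _ _ _ _ _ _ g h Δ hd hg he hc hb
    obtain ⟨H, hH, hy⟩ := H740.tower_q1 (H740.easy H303.UF.crit) (towerLe comp) hd hg he hc hb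
    have hf : IsFibration (Cm (p + (k + d))) (Cm p) (fun x => h (g x)) Δ :=
      comp_fib hg (towerLe comp hb).1
    refine ⟨H, hH, fun y hyH F _ _ _ i hi hinj => ?_⟩
    have h1 := hy y hyH F i hi hinj
    exact ⟨h1, fun hN => (add_le_add le_rfl (kap_le_kodF hf hN)).trans h1⟩

end Vale.Agent.P281.H64.TW
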