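import Vale.Agent.P281.H64.TW.StatR
import Vale.Agent.P281.H64.TW.Fin
import Vale.Agent.P281.H364.V.Neat

/-!
# P281, project T-W (helper64): the statement on towers, short form
-/

open Set
open Vale.Agent.P281 Vale.Agent.P281.H713.TZ.S
open Vale.Agent.P281.H511.Surf (IsFibration IsFibre Q1)
open Vale.Agent.P281.H64.Thin (IsThinSet)
open Vale.Agent.P281.H64.StatV (NoExc ExcOne IsModel Kahler CovRank Cond ForFibres)
open scoped Manifold ContDiff Topology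

noncomputable section

namespace Vale.Agent.P281.H64.TW

theorem hasNeat_iff {n p : ℕ} {X Y : Type} [TopologicalSpace X] [ChartedSpace (Cm n) X]
    [TopologicalSpace Y] [ChartedSpace (Cm p) Y] {f : X → Y} {Δ : Set X → ℝ} :
    HasNeat n p f Δ ↔ HasNeatModel n p f Δ := by
  constructor
  · rintro ⟨X₁, Y₁, _, _, _, _, f₁, Δ₁, h1, h2, h3⟩
    exact ⟨X₁, Y₁, _, _, _, _, f₁, Δ₁, ⟨h1, h2⟩, h3⟩
  · rintro ⟨X₁, Y₁, _, _, _, _, f₁, Δ₁, ⟨h1, h2⟩, h3⟩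
    exact ⟨X₁, Y₁, _, _, _, _, f₁, Δ₁, h1, h2, h3⟩

theorem neat {n p : ℕ} {X Y : Type} [TopologicalSpace X] [ChartedSpace (Cm n) X]
    [TopologicalSpace Y] [ChartedSpace (Cm p) Y] {f : X → Y} {Δ : Set X → ℝ}
    (hf : IsFibration (Cm n) (Cm p) f Δ) (h : p = 1 ∨ HasNeat n p f Δ) :
    HasNeatModel n p f Δ :=
  H364.V.neat_or hf (h.symm.imp_left hasNeat_iff.1)

/-- **T-W** -/
theorem towersR (comp : KodFCompStmt) :
    (∀ (p k : ℕ) (X Y : Type) [TopologicalSpace X] [ChartedSpace (Cm (p + k)) X]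
      [TopologicalSpace Y] [ChartedSpace (Cm p) Y] (f : X → Y) (Δ : Set X → ℝ)
      (a : WithBot ℕ∞), Tower p k X f Δ a → AddLe (p + k) p f Δ a) ∧
    ∀ (p k d : ℕ) (X Z Y : Type) [TopologicalSpace X] [ChartedSpace (Cm (p + (k + d))) X]
      [TopologicalSpace Z] [ChartedSpace (Cm (p + k)) Z] [TopologicalSpace Y]
      [ChartedSpace (Cm p) Y] (g : X → Z) (h : Z → Y) (Δ : Set X → ℝ),
      IsTop (p + (k + d)) (p + k) d g Δ →
      Tower p k Z h (base (Cm (p + (k + d))) (Cm (p + k)) g Δ) ((k : ℕ∞) : WithBot ℕ∞) →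
      FibLe (p + (k + d)) p (k + d) (fun x => h (g x)) Δ := by
  obtain ⟨h1, h2⟩ := towers comp
  refine ⟨fun p k X Y _ _ _ _ f Δ a hT => ?_, fun p k d X Z Y _ _ _ _ _ _ g h Δ ht hb => ?_⟩
  · obtain ⟨⟨ha, hk⟩, hn⟩ := h1 p k X Y f Δ a hT
    exact ⟨ha, fun h => hn (neat (tower_le comp hV hT).1 h)⟩
  · obtain ⟨hd, hg, he, hc⟩ := ht
    obtain ⟨H, hH, hy⟩ := h2 p k d X Z Y g h Δ hd hg he hc hb
    have hf : IsFibration (Cm (p + (k + d))) (Cm p) (fun x => h (g x)) Δ :=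
      comp_fib hg (towerLe comp hb).1
    refine ⟨H, hH, fun y hyH F _ _ _ i hi hinj => ?_⟩
    obtain ⟨ha, hn⟩ := hy y hyH F i hi hinj
    exact ⟨ha, fun h => hn (neat hf h)⟩

end Vale.Agent.P281.H64.TW
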