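import Vale.Agent.P281.H64.TV.Stat

/-!
# P281: definitions for the statement on towers of fibrations
-/

open Set
open Vale.Agent.P281 Vale.Agent.P281.H713.TZ.S
open Vale.Agent.P281.H511.Surf (IsFibration IsFibre)
open Vale.Agent.P281.H64.Thin (IsThinSet)
open Vale.Agent.P281.H64.StatV (NoExc ExcOne IsModel Kahler CovRank Cond)
open scoped Manifold ContDiff Topology

noncomputable section

namespace Vale.Agent.P281.H64.TW

/-- For the very general fibres `G` of `g : X → Z`, of dimension `d`: `κ(G, K_G + Δ|G) ≥ a` and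
`d = 1`, or `X` is Kähler and `κ(G, K_G + Δ|G) ≥ a` and `Cond` holds, or `X` is Kähler and `G` has a
finite étale covering with a Gauss map of rank at least `a`. (Such fibres exist over points off any
countable union of thin closed sets.) -/
def FibGE (n p d : ℕ) {X Z : Type} [TopologicalSpace X] [ChartedSpace (Cm n) X]
    [TopologicalSpace Z] [ChartedSpace (Cm p) Z] (g : X → Z) (Δ : Set X → ℝ)
    (a : WithBot ℕ∞) : Prop :=
  ∀ H : ℕ → Set Z, (∀ j, IsThinSet (Cm p) (H j)) → ∃ z, (∀ j, z ∉ H j) ∧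
    ∃ (G : Type) (_ : TopologicalSpace G) (_ : T2Space G) (_ : ChartedSpace (Cm d) G) (i : G → X),
      IsFibre (Cm n) (Cm d) g z i ∧
        ((a ≤ kodR (Cm n) (Cm d) i Δ ∧ (d = 1 ∨ Kahler n X ∧ Cond n d i Δ True)) ∨
          Kahler n X ∧ ∃ r : ℕ, a ≤ ((r : ℕ∞) : WithBot ℕ∞) ∧ CovRank d G r)

/-- `f : (X, Δ) → Y` is a tower of fibrations: `f = h ∘ g`, where `g : X → Z` has no exceptional
divisors, or only exceptional divisors of coefficient one in `Δ` and an SNC orbifold base `B(g, Δ)`,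
and `h : (Z, B(g, Δ)) → Y` is a tower. The number is the sum of lower bounds of the Kodaira dimensions
of the very general orbifold fibres of the storeys (see `FibGE`). -/
inductive Tower (p : ℕ) {Y : Type} [TopologicalSpace Y] [ChartedSpace (Cm p) Y] :
    ∀ (k : ℕ) (X : Type) [TopologicalSpace X] [ChartedSpace (Cm (p + k)) X],
      (X → Y) → (Set X → ℝ) → WithBot ℕ∞ → Prop
  | one (d : ℕ) (X : Type) [TopologicalSpace X] [ChartedSpace (Cm (p + d)) X] (f : X → Y)
      (Δ : Set X → ℝ) (a : WithBot ℕ∞) (hd : 0 < d)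
      (hf : IsFibration (Cm (p + d)) (Cm p) f Δ) (ha : FibGE (p + d) p d f Δ a) :
      Tower p d X f Δ a
  | step (k d : ℕ) (X Z : Type) [TopologicalSpace X] [ChartedSpace (Cm (p + (k + d))) X]
      [TopologicalSpace Z] [ChartedSpace (Cm (p + k)) Z] (g : X → Z) (h : Z → Y)
      (Δ : Set X → ℝ) (a b : WithBot ℕ∞) (hd : 0 < d)
      (hg : IsFibration (Cm (p + (k + d))) (Cm (p + k)) g Δ)
      (he : NoExc (p + (k + d)) (p + k) g ∨ ExcOne (p + (k + d)) (p + k) g Δ)
      (ha : FibGE (p + (k + d)) (p + k) d g Δ a)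
      (hb : Tower p k Z h (base (Cm (p + (k + d))) (Cm (p + k)) g Δ) b) :
      Tower p (k + d) X (fun x => h (g x)) Δ (a + b)

end Vale.Agent.P281.H64.TW
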