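import Vale.Agent.P281.H64.TW.Stat

/-!
# P281: definitions for the statement on towers of fibrations, end
-/

open Set
open Vale.Agent.P281 Vale.Agent.P281.H713.TZ.S
open Vale.Agent.P281.H511.Surf (IsFibration IsFibre)
open Vale.Agent.P281.H64.Thin (IsThinSet)
open Vale.Agent.P281.H64.StatV (NoExc ExcOne Kahler Cond)
open scoped Manifold ContDiff Topology

noncomputable section

namespace Vale.Agent.P281.H64.TW

/-- `f : (X, Δ) → Y` has a model (a fibration `f₁` with a commutative square `f ∘ u = v ∘ f₁` as in the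
problem, for instance `f₁ = f`) without exceptional divisors, or whose exceptional divisors have
coefficient one and whose orbifold base has simple normal crossings. -/
def HasNeat (n p : ℕ) {X Y : Type} [TopologicalSpace X] [ChartedSpace (Cm n) X]
    [TopologicalSpace Y] [ChartedSpace (Cm p) Y] (f : X → Y) (Δ : Set X → ℝ) : Prop :=
  ∃ (X₁ Y₁ : Type) (_ : TopologicalSpace X₁) (_ : ChartedSpace (Cm n) X₁)
    (_ : TopologicalSpace Y₁) (_ : ChartedSpace (Cm p) Y₁) (f₁ : X₁ → Y₁) (Δ₁ : Set X₁ → ℝ),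
    IsFibration (Cm n) (Cm p) f₁ Δ₁ ∧ IsStep (Cm n) (Cm p) f₁ Δ₁ f Δ ∧
      (NoExc n p f₁ ∨ ExcOne n p f₁ Δ₁)

/-- `κ(X, K_X + Δ) ≥ a + k`, `k = kodF f Δ`, and `κ(X, K_X + Δ) ≥ a + κ(f | Δ)` if `Y` is a curve or
`f` has a neat model. -/
def AddLe (n p : ℕ) {X Y : Type} [tX : TopologicalSpace X] [cX : ChartedSpace (Cm n) X]
    [tY : TopologicalSpace Y] [cY : ChartedSpace (Cm p) Y] (f : X → Y) (Δ : Set X → ℝ)
    (a : WithBot ℕ∞) : Prop :=
  a + kodF n p Δ (id : X → X) f ≤ kodX (Cm n) Δ ∧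
    (p = 1 ∨ HasNeat n p f Δ →
      a + kap (Cm n) (Cm p) ⟨X, Y, tX, tY, cX, cY, f, Δ⟩ ≤ kodX (Cm n) Δ)

/-- `AddLe` with `a = κ(F, K_F + Δ|F)`, for all the fibres `F`, of dimension `m`, over the points of
`Y` off countably many thin closed sets. -/
def FibLe (n p m : ℕ) {X Y : Type} [TopologicalSpace X] [ChartedSpace (Cm n) X]
    [TopologicalSpace Y] [ChartedSpace (Cm p) Y] (f : X → Y) (Δ : Set X → ℝ) : Prop :=
  ∃ H : ℕ → Set Y, (∀ j, IsThinSet (Cm p) (H j)) ∧ ∀ y, (∀ j, y ∉ H j) →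
    ∀ (F : Type) [TopologicalSpace F] [T2Space F] [ChartedSpace (Cm m) F] (i : F → X),
      IsFibre (Cm n) (Cm m) f y i → Function.Injective i →
      AddLe n p f Δ (kodR (Cm n) (Cm m) i Δ)

/-- `g : (X, Δ) → Z` is a fibration of relative dimension `d ≥ 1`, without exceptional divisors, or
with exceptional divisors of coefficient one only and an SNC orbifold base; and `d = 1`, or `X` is
Kähler and the very general fibres of `g` satisfy `Cond`. -/
def IsTop (n p d : ℕ) {X Z : Type} [TopologicalSpace X] [ChartedSpace (Cm n) X]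
    [TopologicalSpace Z] [ChartedSpace (Cm p) Z] (g : X → Z) (Δ : Set X → ℝ) : Prop :=
  0 < d ∧ IsFibration (Cm n) (Cm p) g Δ ∧ (NoExc n p g ∨ ExcOne n p g Δ) ∧
    (d = 1 ∨ Kahler n X ∧ ∃ H : ℕ → Set Z, (∀ j, IsThinSet (Cm p) (H j)) ∧
      ∀ z, (∀ j, z ∉ H j) → ∀ (G : Type) [TopologicalSpace G] [T2Space G] [ChartedSpace (Cm d) G]
        (i : G → X), IsFibre (Cm n) (Cm d) g z i → Cond n d i Δ True)

end Vale.Agent.P281.H64.TW
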